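import Vale.Agent.P235.Comp.Defs

/-!
# Random light functions
-/

namespace Vale.Agent.P235

open Finset

/-- The least oscillation of `u` along a walk of `G` from `x` to `y`: the infimum of the `r` such
that on some walk from `x` to `y` the function `u` varies by at most `r`. -/
noncomputable def minOsc {V : Type} (G : SimpleGraph V) (u : V → ℝ) (x y : V) : ℝ :=
  sInf {r : ℝ | ∃ p : G.Walk x y, ∀ a ∈ p.support, ∀ b ∈ p.support, u a - u b ≤ r}

/-- `(G, ℓ)` has random light functions with constant `D`: there is a finitely supported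
probability distribution on functions `u : V → ℝ` with `E |u x - u y| ≤ ℓ(xy)` for every edge and
`d(x, y) ≤ D * E (least oscillation of u along a walk from x to y)` for all `x`, `y`. -/
def LightRandom {V : Type} (G : SimpleGraph V) (ℓ : Sym2 V → ℝ) (D : ℝ) : Prop :=
  ∃ (ι : Type) (_ : Fintype ι) (w : ι → ℝ) (u : ι → V → ℝ),
    (∀ i, 0 ≤ w i) ∧ (∑ i, w i = 1) ∧
    (∀ x y, G.Adj x y → ∑ i, w i * |u i x - u i y| ≤ ℓ s(x, y)) ∧
    ∀ x y, pathDist G ℓ x y ≤ D * ∑ i, w i * minOsc G (u i) x y

end Vale.Agent.P235
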