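import Vale.Agent.P235.C895.Light

set_option linter.all false

namespace Vale.Agent.P235

open Finset

theorem embeds_of_light {V : Type} [Finite V] {G : SimpleGraph V} (hc : G.Connected)
    {ℓ : Sym2 V → ℝ} (hℓ : ∀ e ∈ G.edgeSet, 0 < ℓ e) {D : ℝ} (hD : 0 < D)
    (h : LightRandom G ℓ D) : EmbedsL1 (pathDist G ℓ) (12 * D) := by
  obtain ⟨ι, _, w, u, hw, hw1, he, hlow⟩ := h
  choose F LF EF DF using fun i => CK.light G (u i)
  have LS : IsL1 (fun x y => ∑ i, w i * F i x y) :=
    IsL1.sum _ _ fun i _ => (LF i).smul (hw i)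
  refine (LS.smul (by positivity : (0 : ℝ) ≤ 12 * D)).embeds (fun x y => ?_) (fun x y => ?_)
  · refine (hlow x y).trans ?_
    show D * ∑ i, w i * minOsc G (u i) x y ≤ 12 * D * ∑ i, w i * F i x y
    have h1 : ∑ i, w i * minOsc G (u i) x y ≤ ∑ i, w i * (12 * F i x y) :=
      Finset.sum_le_sum fun i _ => mul_le_mul_of_nonneg_left (DF i x y (hc x y)) (hw i)
    have h2 : ∑ i, w i * (12 * F i x y) = 12 * ∑ i, w i * F i x y := by
      rw [Finset.mul_sum]
      exact Finset.sum_congr rfl fun i _ => by ring
    rw [h2] at h1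
    have h3 := mul_le_mul_of_nonneg_left h1 hD.le
    linarith
  · have h1 : ∑ i, w i * F i x y ≤ 1 * pathDist G ℓ x y := by
      refine pathDist_semi (ρ := fun x y => ∑ i, w i * F i x y) hc one_pos
        (fun x => LS.self x) (fun x y z => LS.tri x y z) (fun a b hab => ?_) x y
      rw [one_mul]
      refine le_trans (le_of_eq ?_) (he a b hab)
      exact Finset.sum_congr rfl fun i _ => by rw [EF i a b hab]
    rw [one_mul] at h1
    exact mul_le_mul_of_nonneg_left h1 (by positivity)

theorem light_of_embeds {V : Type} [Finite V] {G : SimpleGraph V} (hc : G.Connected)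
    {ℓ : Sym2 V → ℝ} (hℓ : ∀ e ∈ G.edgeSet, 0 < ℓ e) {D : ℝ} (hD : 0 < D)
    (h : EmbedsL1 (pathDist G ℓ) D) : LightRandom G ℓ D := by
  obtain ⟨ρ, h1, h2, h3, _⟩ := h.toL1S
  obtain ⟨ι, _, w, c, hw, hF⟩ := h1.isL1
  set W : ℝ := ∑ i, w i with hW
  have hW0 : 0 ≤ W := Finset.sum_nonneg fun i _ => hw i
  have hW1 : 0 < W + 1 := by linarith
  refine ⟨Option ι, inferInstance, fun o => o.elim (1 / (W + 1)) (fun i => w i / (W + 1)),
    fun o x => o.elim 0 (fun i => (W + 1) / D * (if c i x then 1 else 0)), ?_, ?_, ?_, ?_⟩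
  · rintro (_ | i)
    · simp only [Option.elim_none]; positivity
    · exact div_nonneg (hw i) hW1.le
  · rw [Fintype.sum_option]
    simp only [Option.elim_none, Option.elim_some]
    rw [← Finset.sum_div, ← hW, ← add_div, add_comm, div_self hW1.ne']
  · intro x y hxy
    have e : ∑ o : Option ι, (o.elim (1 / (W + 1)) fun i => w i / (W + 1)) *
        |(o.elim 0 fun i => (W + 1) / D * (if c i x then 1 else 0)) -
          (o.elim 0 fun i => (W + 1) / D * (if c i y then 1 else 0))| = ρ x y / D := by
      rw [Fintype.sum_option, hF, Finset.sum_div]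
      simp only [Option.elim_none, Option.elim_some, sub_self, abs_zero, mul_zero, zero_add]
      refine Finset.sum_congr rfl fun i _ => ?_
      rw [← mul_sub, abs_mul, abs_of_pos (by positivity : 0 < (W + 1) / D)]
      cases c i x <;> cases c i y <;> simp <;> field_simp
    rw [e, div_le_iff₀ hD]
    refine (h3 x y).trans ?_
    rw [mul_comm]
    exact mul_le_mul_of_nonneg_right (pathDist_adj hℓ hxy) hD.le
  · intro x y
    have e : ∀ o : Option ι, (o.elim (1 / (W + 1)) fun i => w i / (W + 1)) *
        |(o.elim 0 fun i => (W + 1) / D * (if c i x then 1 else 0)) -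
          (o.elim 0 fun i => (W + 1) / D * (if c i y then 1 else 0))| ≤
        (o.elim (1 / (W + 1)) fun i => w i / (W + 1)) *
          minOsc G (fun x => o.elim 0 fun i => (W + 1) / D * (if c i x then 1 else 0)) x y := by
      intro o
      refine mul_le_mul_of_nonneg_left ?_ ?_
      · exact CK.abs_le_minOsc (u := fun x => o.elim 0 fun i =>
          (W + 1) / D * (if c i x then 1 else 0)) (hc x y)
      · rcases o with _ | i
        · simp only [Option.elim_none]; positivity
        · exact div_nonneg (hw i) hW1.le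
    have e2 : ∑ o : Option ι, (o.elim (1 / (W + 1)) fun i => w i / (W + 1)) *
        |(o.elim 0 fun i => (W + 1) / D * (if c i x then 1 else 0)) -
          (o.elim 0 fun i => (W + 1) / D * (if c i y then 1 else 0))| = ρ x y / D := by
      rw [Fintype.sum_option, hF, Finset.sum_div]
      simp only [Option.elim_none, Option.elim_some, sub_self, abs_zero, mul_zero, zero_add]
      refine Finset.sum_congr rfl fun i _ => ?_
      rw [← mul_sub, abs_mul, abs_of_pos (by positivity : 0 < (W + 1) / D)]
      cases c i x <;> cases c i y <;> simp <;> field_simp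
    have e3 := Finset.sum_le_sum fun o (_ : o ∈ Finset.univ) => e o
    rw [e2] at e3
    have e4 := mul_le_mul_of_nonneg_left e3 hD.le
    rw [mul_div_cancel₀ _ hD.ne'] at e4
    exact (h2 x y).trans e4

end Vale.Agent.P235
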