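import Vale.Agent.P235.Comp.Final
import Vale.Agent.P235.C895.Defs

set_option linter.all false

/-!
# Light functions give `L₁` embeddings (finite form, universal constant)
-/

namespace Vale.Agent.P235

open Finset

namespace CK

/-- distance to the ends of `[l, l + h]` -/
noncomputable def tent (l h t : ℝ) : ℝ := min (t - l) (l + h - t)

theorem tent_lip (l h s t : ℝ) : |tent l h s - tent l h t| ≤ |s - t| := by
  unfold tent
  refine (abs_min_sub_min_le_max _ _ _ _).trans ?_
  refine max_le ?_ ?_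
  · rw [show s - l - (t - l) = s - t by ring]
  · rw [show l + h - s - (l + h - t) = -(s - t) by ring, abs_neg]

/-- sign of a bit -/
noncomputable def sb (b : Bool) : ℝ := if b then 1 else -1

theorem sb_not (b : Bool) : sb (!b) = - sb b := by cases b <;> simp [sb]

theorem sb_abs (b : Bool) : |sb b| = 1 := by cases b <;> simp [sb]

section flip

variable {κ : Type} [DecidableEq κ]

/-- flip the bit at `c` -/
def fl (c : κ) (s : κ → Bool) : κ → Bool := Function.update s c (!(s c))

theorem fl_self (c : κ) (s : κ → Bool) : fl c s c = !(s c) := by simp [fl]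

theorem fl_ne {c c' : κ} (h : c' ≠ c) (s : κ → Bool) : fl c s c' = s c' := by simp [fl, h]

theorem fl_fl (c : κ) (s : κ → Bool) : fl c (fl c s) = s := by
  funext a
  by_cases h : a = c
  · subst h; simp [fl]
  · simp [fl, h]

theorem sum_fl [Fintype κ] (c : κ) (f : (κ → Bool) → ℝ) : ∑ s, f (fl c s) = ∑ s, f s :=
  Equiv.sum_comp (Function.Involutive.toPerm (fl c) (fl_fl c)) f

theorem avg_eq [Fintype κ] (c : κ) {f : (κ → Bool) → ℝ} {K : ℝ}
    (h : ∀ s, f s + f (fl c s) = 2 * K) :
    ∑ s, f s = (Fintype.card (κ → Bool) : ℝ) * K := by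
  have h1 : ∑ s, (f s + f (fl c s)) = ∑ _s : κ → Bool, 2 * K :=
    Finset.sum_congr rfl fun s _ => h s
  rw [Finset.sum_add_distrib, sum_fl, Finset.sum_const, nsmul_eq_mul, Finset.card_univ] at h1
  linarith

theorem avg_ge [Fintype κ] (c : κ) {f : (κ → Bool) → ℝ} {K : ℝ}
    (h : ∀ s, 2 * K ≤ f s + f (fl c s)) :
    (Fintype.card (κ → Bool) : ℝ) * K ≤ ∑ s, f s := by
  have h1 : ∑ _s : κ → Bool, 2 * K ≤ ∑ s, (f s + f (fl c s)) :=
    Finset.sum_le_sum fun s _ => h s
  rw [Finset.sum_add_distrib, sum_fl, Finset.sum_const, nsmul_eq_mul, Finset.card_univ] at h1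
  linarith

end flip

theorem abs_two {d e : ℝ} (h : |e| ≤ |d|) : |d + e| + |d - e| = 2 * |d| := by
  rcases abs_cases d with ⟨h1, h2⟩ | ⟨h1, h2⟩ <;> rcases abs_cases e with ⟨h3, h4⟩ | ⟨h3, h4⟩ <;>
    rcases abs_cases (d + e) with ⟨h5, h6⟩ | ⟨h5, h6⟩ <;>
    rcases abs_cases (d - e) with ⟨h7, h8⟩ | ⟨h7, h8⟩ <;> linarith

/-- One scale: random reflections towards the two ends, one sign per component. -/
theorem stage {V κ : Type} [Finite κ] (C : V → κ) (l : V → ℝ) (h : ℝ)
    (hl : ∀ x y, C x = C y → l x = l y) {ι : Type} [Fintype ι] (w : ι → ℝ) (g : ι → V → ℝ)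
    (hw : ∀ i, 0 ≤ w i) (hg : ∀ i x, l x ≤ g i x ∧ g i x ≤ l x + h) :
    ∃ (ι' : Type) (_ : Fintype ι') (w' : ι' → ℝ) (g' : ι' → V → ℝ),
      (∀ i, 0 ≤ w' i) ∧ (∑ i, w' i = ∑ i, w i) ∧
      (∀ i x, l x ≤ g' i x ∧ g' i x ≤ l x + h) ∧
      (∀ x, ∑ i, w' i * g' i x = ∑ i, w i * g i x) ∧
      (∀ x y, C x = C y → ∑ i, w' i * |g' i x - g' i y| = ∑ i, w i * |g i x - g i y|) ∧
      (∀ x y, C x ≠ C y →
        ∑ i, w i * tent (l x) h (g i x) ≤ ∑ i, w' i * |g' i x - g' i y|) ∧
      (∀ x y, (∀ i, g i x ≤ g i y) → (C x = C y ∨ l x + h ≤ l y) → ∀ i, g' i x ≤ g' i y) := by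
  classical
  have : Fintype κ := Fintype.ofFinite κ
  set N : ℝ := (Fintype.card (κ → Bool) : ℝ) with hN
  have hN0 : 0 < N := by rw [hN]; exact_mod_cast Fintype.card_pos
  have key : ∀ (i : ι) (s : κ → Bool) (x : V),
      l x ≤ g i x + sb (s (C x)) * tent (l x) h (g i x) ∧
      g i x + sb (s (C x)) * tent (l x) h (g i x) ≤ l x + h := by
    intro i s x
    obtain ⟨h1, h2⟩ := hg i x
    have h3 : tent (l x) h (g i x) ≤ g i x - l x := min_le_left _ _
    have h4 : tent (l x) h (g i x) ≤ l x + h - g i x := min_le_right _ _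
    have h5 : 0 ≤ tent (l x) h (g i x) := le_min (by linarith) (by linarith)
    cases s (C x) <;> simp only [sb, if_true, Bool.false_eq_true, if_false] <;>
      constructor <;> linarith
  refine ⟨ι × (κ → Bool), inferInstance, fun p => w p.1 * N⁻¹,
    fun p x => g p.1 x + sb (p.2 (C x)) * tent (l x) h (g p.1 x), ?_, ?_, ?_, ?_, ?_, ?_, ?_⟩
  · intro p
    exact mul_nonneg (hw _) (inv_nonneg.mpr hN0.le)
  · rw [Fintype.sum_prod_type]
    refine Finset.sum_congr rfl fun i _ => ?_
    simp only [Finset.sum_const, nsmul_eq_mul, Finset.card_univ]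
    rw [← hN]
    field_simp
  · intro p x
    exact key p.1 p.2 x
  · intro x
    rw [Fintype.sum_prod_type]
    refine Finset.sum_congr rfl fun i _ => ?_
    have h1 := avg_eq (C x) (f := fun s : κ → Bool =>
      g i x + sb (s (C x)) * tent (l x) h (g i x)) (K := g i x) (by
        intro s
        simp only [fl_self, sb_not]
        ring)
    simp only [← Finset.mul_sum]
    rw [h1, ← hN]
    field_simp
  · intro x y hxy
    rw [Fintype.sum_prod_type]
    refine Finset.sum_congr rfl fun i _ => ?_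
    have h1 := avg_eq (C x) (f := fun s : κ → Bool =>
      |g i x + sb (s (C x)) * tent (l x) h (g i x) -
        (g i y + sb (s (C y)) * tent (l y) h (g i y))|) (K := |g i x - g i y|) (by
        intro s
        simp only [← hxy, fl_self, sb_not, ← hl x y hxy]
        have h2 := tent_lip (l x) h (g i x) (g i y)
        have h3 : |sb (s (C x)) * (tent (l x) h (g i x) - tent (l x) h (g i y))| ≤
            |g i x - g i y| := by
          rw [abs_mul, sb_abs, one_mul]; exact h2
        have h4 := abs_two h3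
        rw [← h4]
        congr 1 <;> congr 1 <;> ring)
    simp only [← Finset.mul_sum]
    rw [h1, ← hN]
    field_simp
  · intro x y hxy
    rw [Fintype.sum_prod_type]
    refine Finset.sum_le_sum fun i _ => ?_
    have h1 := avg_ge (C x) (f := fun s : κ → Bool =>
      |g i x + sb (s (C x)) * tent (l x) h (g i x) -
        (g i y + sb (s (C y)) * tent (l y) h (g i y))|) (K := tent (l x) h (g i x)) (by
        intro s
        have h0 : fl (C x) s (C y) = s (C y) := fl_ne (Ne.symm hxy) s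
        simp only [fl_self, sb_not, h0]
        set Z := g i y + sb (s (C y)) * tent (l y) h (g i y)
        set A := tent (l x) h (g i x)
        have h2 := abs_sub (g i x + sb (s (C x)) * A - Z) (g i x + -sb (s (C x)) * A - Z)
        have h3 : |g i x + sb (s (C x)) * A - Z - (g i x + -sb (s (C x)) * A - Z)| =
            2 * |A| := by
          rw [show g i x + sb (s (C x)) * A - Z - (g i x + -sb (s (C x)) * A - Z) =
            2 * (sb (s (C x)) * A) by ring, abs_mul, abs_mul, sb_abs]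
          simp
        rw [h3] at h2
        have h4 := le_abs_self A
        linarith)
    simp only [← Finset.mul_sum]
    have h5 : 0 ≤ w i * N⁻¹ := mul_nonneg (hw _) (inv_nonneg.mpr hN0.le)
    calc w i * tent (l x) h (g i x) = w i * N⁻¹ * (N * tent (l x) h (g i x)) := by
          field_simp
      _ ≤ _ := mul_le_mul_of_nonneg_left h1 h5
  · intro x y hxy hC p
    rcases hC with hC | hC
    · have h2 := tent_lip (l x) h (g p.1 x) (g p.1 y)
      show g p.1 x + sb (p.2 (C x)) * tent (l x) h (g p.1 x) ≤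
        g p.1 y + sb (p.2 (C y)) * tent (l y) h (g p.1 y)
      rw [← hC, ← hl x y hC]
      have h3 : |sb (p.2 (C x)) * (tent (l x) h (g p.1 x) - tent (l x) h (g p.1 y))| ≤
          |g p.1 x - g p.1 y| := by
        rw [abs_mul, sb_abs, one_mul]; exact h2
      have h4 := (abs_le.mp h3).2
      have h5 : |g p.1 x - g p.1 y| = g p.1 y - g p.1 x := by
        rw [abs_sub_comm]; exact abs_of_nonneg (by linarith [hxy p.1])
      rw [h5] at h4
      linarith [h4, mul_sub (sb (p.2 (C x))) (tent (l x) h (g p.1 x)) (tent (l x) h (g p.1 y))]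
    · exact ((key p.1 p.2 x).2.trans hC).trans (key p.1 p.2 y).1

section slabs

variable {V : Type} (G : SimpleGraph V) (u : V → ℝ) (τ h0 : ℝ)

/-- slab heights -/
noncomputable def hh (j : ℕ) : ℝ := h0 * 2 ^ j

/-- slab number -/
noncomputable def nn (j : ℕ) (x : V) : ℤ := ⌊(u x - τ) / hh h0 j⌋

/-- lower end of the slab -/
noncomputable def lo (j : ℕ) (x : V) : ℝ := τ + hh h0 j * nn u τ h0 j x

/-- component of the slab -/
def Cc (j : ℕ) (x : V) : Set V :=
  {y | ∃ p : G.Walk x y, ∀ a ∈ p.support, nn u τ h0 j a = nn u τ h0 j x}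

variable {G u τ h0}

theorem hh_pos (h : 0 < h0) (j : ℕ) : 0 < hh h0 j := by unfold hh; positivity

theorem hh_succ (j : ℕ) : hh h0 (j + 1) = 2 * hh h0 j := by unfold hh; ring

theorem lo_le (h : 0 < h0) (j : ℕ) (x : V) : lo u τ h0 j x ≤ u x := by
  have h1 := hh_pos h j
  have h2 := Int.floor_le ((u x - τ) / hh h0 j)
  rw [le_div_iff₀ h1] at h2
  unfold lo nn
  linarith

theorem lt_lo (h : 0 < h0) (j : ℕ) (x : V) : u x < lo u τ h0 j x + hh h0 j := by
  have h1 := hh_pos h j
  have h2 := Int.lt_floor_add_one ((u x - τ) / hh h0 j)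
  rw [div_lt_iff₀ h1] at h2
  unfold lo nn
  linarith

theorem nest (h : 0 < h0) (j : ℕ) (x : V) :
    lo u τ h0 (j + 1) x = lo u τ h0 j x ∨
      lo u τ h0 (j + 1) x + hh h0 j = lo u τ h0 j x := by
  have h1 := hh_pos h j
  have a1 := lo_le (u := u) (τ := τ) h j x
  have a2 := lt_lo (u := u) (τ := τ) h j x
  have b1 := lo_le (u := u) (τ := τ) h (j + 1) x
  have b2 := lt_lo (u := u) (τ := τ) h (j + 1) x
  unfold lo at *
  rw [hh_succ] at *
  set n := nn u τ h0 j x
  set m := nn u τ h0 (j + 1) x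
  have c1 : (2 * m : ℤ) < n + 1 := by
    have : ((2 * m : ℤ) : ℝ) * hh h0 j < ((n + 1 : ℤ) : ℝ) * hh h0 j := by
      push_cast
      linarith
    exact_mod_cast lt_of_mul_lt_mul_right this h1.le
  have c2 : n < 2 * m + 2 := by
    have : ((n : ℤ) : ℝ) * hh h0 j < ((2 * m + 2 : ℤ) : ℝ) * hh h0 j := by
      push_cast
      linarith
    exact_mod_cast lt_of_mul_lt_mul_right this h1.le
  have c3 : n = 2 * m ∨ n = 2 * m + 1 := by omega
  rcases c3 with c3 | c3
  · left
    rw [c3]; push_cast; ring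
  · right
    rw [c3]; push_cast; ring

theorem mem_Cc (j : ℕ) (x : V) : x ∈ Cc G u τ h0 j x :=
  ⟨SimpleGraph.Walk.nil, by intro a ha; simp only [SimpleGraph.Walk.support_nil,
    List.mem_singleton] at ha; rw [ha]⟩

theorem walk_of_Cc {j : ℕ} {x y : V} (h : Cc G u τ h0 j x = Cc G u τ h0 j y) :
    ∃ p : G.Walk x y, ∀ a ∈ p.support, nn u τ h0 j a = nn u τ h0 j x := by
  have : y ∈ Cc G u τ h0 j x := by rw [h]; exact mem_Cc j y
  exact this

theorem nn_of_Cc {j : ℕ} {x y : V} (h : Cc G u τ h0 j x = Cc G u τ h0 j y) :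
    nn u τ h0 j y = nn u τ h0 j x := by
  obtain ⟨p, hp⟩ := walk_of_Cc h
  exact hp y p.end_mem_support

theorem lo_of_Cc {j : ℕ} {x y : V} (h : Cc G u τ h0 j x = Cc G u τ h0 j y) :
    lo u τ h0 j x = lo u τ h0 j y := by
  unfold lo; rw [nn_of_Cc h]

theorem Cc_sub {j : ℕ} {a b : V} (hab : G.Adj a b) (h : nn u τ h0 j a = nn u τ h0 j b) :
    Cc G u τ h0 j b ⊆ Cc G u τ h0 j a := by
  rintro z ⟨p, hp⟩
  refine ⟨SimpleGraph.Walk.cons hab p, ?_⟩
  intro c hc
  rw [SimpleGraph.Walk.support_cons, List.mem_cons] at hc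
  rcases hc with rfl | hc
  · rfl
  · rw [hp c hc, h]

theorem Cc_adj {j : ℕ} {a b : V} (hab : G.Adj a b) (h : nn u τ h0 j a = nn u τ h0 j b) :
    Cc G u τ h0 j a = Cc G u τ h0 j b :=
  Set.Subset.antisymm (Cc_sub hab.symm h.symm) (Cc_sub hab h)

theorem tent_step (h : 0 < h0) (j : ℕ) (x : V) :
    tent (lo u τ h0 j x) (hh h0 j) (u x) ≤ tent (lo u τ h0 (j + 1) x) (hh h0 (j + 1)) (u x) := by
  have h1 := hh_pos h j
  unfold tent
  rw [hh_succ]
  rcases nest (u := u) (τ := τ) h j x with h2 | h2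
  · refine min_le_min ?_ ?_ <;> linarith
  · refine min_le_min ?_ ?_ <;> linarith

theorem tent_mono (h : 0 < h0) {k j : ℕ} (hkj : k ≤ j) (x : V) :
    tent (lo u τ h0 k x) (hh h0 k) (u x) ≤ tent (lo u τ h0 j x) (hh h0 j) (u x) := by
  induction j, hkj using Nat.le_induction with
  | base => exact le_rfl
  | succ j _ ih => exact ih.trans (tent_step h j x)

/-- mean of the tent function over a family which stays in a child slab -/
theorem tent_mean (h : 0 < h0) (j : ℕ) (x : V) {ι : Type} [Fintype ι] {w : ι → ℝ}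
    {g : ι → V → ℝ} (hw1 : ∑ i, w i = 1)
    (hg : ∀ i, lo u τ h0 j x ≤ g i x ∧ g i x ≤ lo u τ h0 j x + hh h0 j)
    (hm : ∑ i, w i * g i x = u x) :
    ∑ i, w i * tent (lo u τ h0 (j + 1) x) (hh h0 (j + 1)) (g i x) =
      tent (lo u τ h0 (j + 1) x) (hh h0 (j + 1)) (u x) := by
  have h1 := hh_pos h j
  have a1 := lo_le (u := u) (τ := τ) h j x
  have a2 := lt_lo (u := u) (τ := τ) h j x
  rcases nest (u := u) (τ := τ) h j x with h2 | h2
  · have e : ∀ t, t ≤ lo u τ h0 j x + hh h0 j →
        tent (lo u τ h0 (j + 1) x) (hh h0 (j + 1)) t = t - lo u τ h0 (j + 1) x := by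
      intro t ht
      unfold tent
      rw [hh_succ]
      exact min_eq_left (by linarith)
    rw [e _ a2.le, Finset.sum_congr rfl fun i _ => by rw [e _ (hg i).2]]
    simp only [mul_sub, Finset.sum_sub_distrib]
    rw [hm, ← Finset.sum_mul, hw1, one_mul]
  · have e : ∀ t, lo u τ h0 j x ≤ t →
        tent (lo u τ h0 (j + 1) x) (hh h0 (j + 1)) t =
          lo u τ h0 (j + 1) x + hh h0 (j + 1) - t := by
      intro t ht
      unfold tent
      rw [hh_succ]
      exact min_eq_right (by linarith)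
    rw [e _ a1, Finset.sum_congr rfl fun i _ => by rw [e _ (hg i).1]]
    simp only [mul_sub, Finset.sum_sub_distrib]
    rw [hm, ← Finset.sum_mul, hw1, one_mul]

/-- the construction up to scale `j` -/
theorem build [Finite V] (h : 0 < h0) (j : ℕ) :
    ∃ (ι : Type) (_ : Fintype ι) (w : ι → ℝ) (g : ι → V → ℝ),
      (∀ i, 0 ≤ w i) ∧ (∑ i, w i = 1) ∧
      (∀ i x, lo u τ h0 j x ≤ g i x ∧ g i x ≤ lo u τ h0 j x + hh h0 j) ∧
      (∀ x, ∑ i, w i * g i x = u x) ∧
      (∀ a b, G.Adj a b → u a ≤ u b → ∀ i, g i a ≤ g i b) ∧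
      (∀ k, 1 ≤ k → k ≤ j → ∀ x y, Cc G u τ h0 k x ≠ Cc G u τ h0 k y →
        tent (lo u τ h0 k x) (hh h0 k) (u x) ≤ ∑ i, w i * |g i x - g i y|) := by
  induction j with
  | zero =>
    refine ⟨Unit, inferInstance, fun _ => 1, fun _ => u, fun _ => zero_le_one, by simp,
      fun _ x => ⟨lo_le h 0 x, (lt_lo h 0 x).le⟩, fun x => by simp, fun a b _ hab _ => hab, ?_⟩
    intro k h1 h2
    omega
  | succ j ih =>
    obtain ⟨ι, _, w, g, hw, hw1, hr, hm, ho, hlow⟩ := ih
    have h1 := hh_pos h j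
    obtain ⟨ι', _, w', g', hw', hw1', hr', hm', hs', hd', ho'⟩ := stage
      (fun x => Cc G u τ h0 (j + 1) x) (lo u τ h0 (j + 1)) (hh h0 (j + 1))
      (fun x y hxy => lo_of_Cc hxy) w g hw (by
        intro i x
        obtain ⟨h2, h3⟩ := hr i x
        rw [hh_succ]
        rcases nest (u := u) (τ := τ) h j x with h4 | h4
        · constructor <;> linarith
        · constructor <;> linarith)
    refine ⟨ι', inferInstance, w', g', hw', hw1'.trans hw1, hr', fun x => (hm' x).trans (hm x),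
      ?_, ?_⟩
    · intro a b hab huab
      refine ho' a b (ho a b hab huab) ?_
      have h2 : nn u τ h0 (j + 1) a ≤ nn u τ h0 (j + 1) b := by
        unfold nn
        apply Int.floor_le_floor
        have := hh_pos h (j + 1)
        gcongr
      rcases h2.lt_or_eq with h3 | h3
      · right
        have h4 : ((nn u τ h0 (j + 1) a : ℤ) : ℝ) + 1 ≤ (nn u τ h0 (j + 1) b : ℤ) := by
          exact_mod_cast h3
        have h5 := hh_pos h (j + 1)
        unfold lo
        nlinarith
      · left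
        exact Cc_adj hab h3
    · intro k hk1 hk2 x y hxy
      by_cases hC : Cc G u τ h0 (j + 1) x = Cc G u τ h0 (j + 1) y
      · have hk3 : k ≤ j := by
          by_contra hcon
          have : k = j + 1 := by omega
          rw [this] at hxy
          exact hxy hC
        rw [hs' x y hC]
        exact hlow k hk1 hk3 x y hxy
      · refine (tent_mono h hk2 x).trans ?_
        rw [← tent_mean h j x hw1 (fun i => hr i x) (hm x)]
        exact hd' x y hC

/-- one offset -/
theorem one_offset [Finite V] (G : SimpleGraph V) (u : V → ℝ) (τ : ℝ) {h0 : ℝ} (h : 0 < h0)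
    (N : ℕ) :
    ∃ F : V → V → ℝ, IsL1 F ∧ (∀ a b, G.Adj a b → F a b = |u a - u b|) ∧
      ∀ k, 1 ≤ k → k ≤ N → ∀ x y, Cc G u τ h0 k x ≠ Cc G u τ h0 k y →
        tent (lo u τ h0 k x) (hh h0 k) (u x) ≤ F x y := by
  obtain ⟨ι, _, w, g, hw, hw1, hr, hm, ho, hlow⟩ := build (G := G) (u := u) (τ := τ) h N
  refine ⟨fun x y => ∑ i, w i * |g i x - g i y|, ?_, ?_, hlow⟩
  · apply IsL1.sum
    intro i _
    exact (isL1_line (g i)).smul (hw i)
  · have key : ∀ a b, G.Adj a b → u a ≤ u b → ∑ i, w i * |g i a - g i b| = |u a - u b| := by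
      intro a b hab huab
      have h1 : ∀ i, w i * |g i a - g i b| = w i * g i b - w i * g i a := by
        intro i
        rw [abs_sub_comm, abs_of_nonneg (by linarith [ho a b hab huab i]), mul_sub]
      rw [Finset.sum_congr rfl fun i _ => h1 i, Finset.sum_sub_distrib, hm, hm, abs_sub_comm,
        abs_of_nonneg (by linarith)]
    intro a b hab
    rcases le_total (u a) (u b) with h1 | h1
    · exact key a b hab h1
    · have h2 := key b a hab.symm h1
      show ∑ i, w i * |g i a - g i b| = |u a - u b|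
      rw [abs_sub_comm (u a), ← h2]
      exact Finset.sum_congr rfl fun i _ => by rw [abs_sub_comm]

theorem tent_int (h : 0 < h0) (k : ℕ) (x : V) :
    ∃ m : ℤ, tent (lo u τ h0 k x) (hh h0 k) (u x) = |u x - (τ + hh h0 k * m)| := by
  have a1 := lo_le (u := u) (τ := τ) h k x
  have a2 := lt_lo (u := u) (τ := τ) h k x
  unfold tent
  rcases le_total (u x - lo u τ h0 k x) (lo u τ h0 k x + hh h0 k - u x) with h1 | h1
  · refine ⟨nn u τ h0 k x, ?_⟩
    rw [min_eq_left h1, abs_of_nonneg]
    · rfl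
    · unfold lo at a1; linarith
  · refine ⟨nn u τ h0 k x + 1, ?_⟩
    rw [min_eq_right h1, abs_sub_comm, abs_of_nonneg]
    · unfold lo; push_cast; ring
    · unfold lo at a2; push_cast; linarith

theorem third (a : ℕ) (m : ℤ) : (1 : ℝ) / 3 ≤ |(2 : ℝ) ^ a / 3 + m| := by
  have h1 : (2 : ℤ) ^ a + 3 * m ≠ 0 := by
    intro h
    have h2 : (3 : ℤ) ∣ 2 ^ a := ⟨-m, by linarith⟩
    have h3 : (3 : ℤ) ∣ 2 := Int.Prime.dvd_pow' (by norm_num) h2
    omega
  have h2 : (1 : ℤ) ≤ |(2 : ℤ) ^ a + 3 * m| := Int.one_le_abs h1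
  have h3 : (1 : ℝ) ≤ |(2 : ℝ) ^ a + 3 * m| := by exact_mod_cast h2
  have h4 : (2 : ℝ) ^ a / 3 + m = ((2 : ℝ) ^ a + 3 * m) / 3 := by ring
  rw [h4, abs_div, abs_of_pos (by norm_num : (0 : ℝ) < 3)]
  linarith

theorem two_offsets (h : 0 < h0) {k N : ℕ} (hk : k ≤ N) (x : V) :
    hh h0 k / 3 ≤ tent (lo u 0 h0 k x) (hh h0 k) (u x) +
      tent (lo u (h0 * 2 ^ N / 3) h0 k x) (hh h0 k) (u x) := by
  obtain ⟨m, hm⟩ := tent_int (u := u) (τ := 0) h k x
  obtain ⟨m', hm'⟩ := tent_int (u := u) (τ := h0 * 2 ^ N / 3) h k x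
  rw [hm, hm']
  have h1 := hh_pos h k
  have h2 := abs_sub (u x - (0 + hh h0 k * m)) (u x - (h0 * 2 ^ N / 3 + hh h0 k * m'))
  have h3 : u x - (0 + hh h0 k * m) - (u x - (h0 * 2 ^ N / 3 + hh h0 k * m')) =
      hh h0 k * ((2 : ℝ) ^ (N - k) / 3 + ((m' - m : ℤ) : ℝ)) := by
    have h4 : (2 : ℝ) ^ N = 2 ^ k * 2 ^ (N - k) := by
      rw [← pow_add]; congr 1; omega
    rw [h4]
    unfold hh
    push_cast
    ring
  rw [h3, abs_mul, abs_of_pos h1] at h2
  have h5 := third (N - k) (m' - m)
  have h6 := mul_le_mul_of_nonneg_left h5 h1.le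
  linarith

end slabs

section osc

variable {V : Type} {G : SimpleGraph V} {u : V → ℝ}

theorem osc_bdd (x y : V) :
    BddBelow {r : ℝ | ∃ p : G.Walk x y, ∀ a ∈ p.support, ∀ b ∈ p.support, u a - u b ≤ r} := by
  refine ⟨0, ?_⟩
  rintro r ⟨p, hp⟩
  have := hp x p.start_mem_support x p.start_mem_support
  linarith

theorem minOsc_le {x y : V} {r : ℝ} (p : G.Walk x y)
    (hp : ∀ a ∈ p.support, ∀ b ∈ p.support, u a - u b ≤ r) : minOsc G u x y ≤ r :=
  csInf_le (osc_bdd x y) ⟨p, hp⟩

theorem osc_ne [Finite V] {x y : V} (h : G.Reachable x y) :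
    {r : ℝ | ∃ p : G.Walk x y, ∀ a ∈ p.support, ∀ b ∈ p.support, u a - u b ≤ r}.Nonempty := by
  obtain ⟨p⟩ := h
  obtain ⟨M, hM⟩ := (Set.finite_range u).bddAbove
  obtain ⟨m, hm⟩ := (Set.finite_range u).bddBelow
  refine ⟨M - m, p, ?_⟩
  intro a _ b _
  have h1 := hM (Set.mem_range_self a)
  have h2 := hm (Set.mem_range_self b)
  linarith

theorem abs_le_minOsc [Finite V] {x y : V} (h : G.Reachable x y) :
    |u x - u y| ≤ minOsc G u x y := by
  refine le_csInf (osc_ne h) ?_
  rintro r ⟨p, hp⟩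
  have h1 := hp x p.start_mem_support y p.end_mem_support
  have h2 := hp y p.end_mem_support x p.start_mem_support
  exact abs_le.mpr ⟨by linarith, h1⟩

/-- **Light functions.** For every finite graph and every real function `u` on it there is an `L₁`
semimetric which is exactly `|u a - u b|` on edges and at least `1/12` of the least oscillation of
`u` along walks. -/
theorem light [Finite V] (G : SimpleGraph V) (u : V → ℝ) :
    ∃ F : V → V → ℝ, IsL1 F ∧ (∀ a b, G.Adj a b → F a b = |u a - u b|) ∧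
      ∀ x y, G.Reachable x y → minOsc G u x y ≤ 12 * F x y := by
  classical
  have hfin : (Set.range fun p : V × V => minOsc G u p.1 p.2).Finite := Set.finite_range _
  obtain ⟨M, hM⟩ := hfin.bddAbove
  -- a positive lower bound for the positive values
  obtain ⟨δ, hδ, hδ'⟩ : ∃ δ : ℝ, 0 < δ ∧ ∀ x y, 0 < minOsc G u x y → δ < minOsc G u x y := by
    have hf2 : (((Set.range fun p : V × V => minOsc G u p.1 p.2) ∩ Set.Ioi 0)).Finite :=
      hfin.subset Set.inter_subset_left
    rcases Set.eq_empty_or_nonempty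
      ((Set.range fun p : V × V => minOsc G u p.1 p.2) ∩ Set.Ioi 0) with he | hne
    · refine ⟨1, one_pos, ?_⟩
      intro x y hxy
      exfalso
      have : minOsc G u x y ∈ (Set.range fun p : V × V => minOsc G u p.1 p.2) ∩ Set.Ioi 0 :=
        ⟨⟨(x, y), rfl⟩, hxy⟩
      rw [he] at this
      exact this
    · obtain ⟨m, hm, hmin⟩ := Set.exists_min_image _ id hf2 hne
      have hm0 : 0 < m := hm.2
      refine ⟨m / 2, by linarith, ?_⟩
      intro x y hxy
      have := hmin (minOsc G u x y) ⟨⟨(x, y), rfl⟩, hxy⟩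
      simp only [id] at this
      linarith
  set h0 : ℝ := δ / 2 with hh0
  have hpos : 0 < h0 := by positivity
  obtain ⟨N, hN⟩ : ∃ N : ℕ, M / h0 ≤ (2 : ℝ) ^ N := by
    obtain ⟨N, hN⟩ := pow_unbounded_of_one_lt (M / h0) (by norm_num : (1 : ℝ) < 2)
    exact ⟨N, hN.le⟩
  obtain ⟨F, LF, EF, DF⟩ := one_offset G u 0 hpos N
  obtain ⟨F', LF', EF', DF'⟩ := one_offset G u (h0 * 2 ^ N / 3) hpos N
  refine ⟨fun x y => (1 / 2) * F x y + (1 / 2) * F' x y,
    (LF.smul (by norm_num)).add (LF'.smul (by norm_num)), ?_, ?_⟩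
  · intro a b hab
    show (1 / 2) * F a b + (1 / 2) * F' a b = |u a - u b|
    rw [EF a b hab, EF' a b hab]; ring
  · intro x y hxy
    show minOsc G u x y ≤ 12 * ((1 / 2) * F x y + (1 / 2) * F' x y)
    have n1 := LF.nonneg x y
    have n2 := LF'.nonneg x y
    rcases le_or_gt (minOsc G u x y) 0 with h1 | h1
    · linarith
    · have h2 := hδ' x y h1
      have h3 : minOsc G u x y ≤ M := hM ⟨(x, y), rfl⟩
      have h4 : minOsc G u x y ≤ hh h0 N := by
        unfold hh
        rw [div_le_iff₀' hpos] at hN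
        linarith
      -- the scale
      have hex : ∃ k : ℕ, minOsc G u x y ≤ hh h0 (k + 1) := by
        refine ⟨N, h4.trans ?_⟩
        rw [hh_succ]
        linarith [hh_pos hpos N]
      set k := Nat.find hex with hk
      have k1 : minOsc G u x y ≤ hh h0 (k + 1) := Nat.find_spec hex
      have k2 : 1 ≤ k := by
        by_contra hcon
        have hk0 : k = 0 := by omega
        rw [hk0] at k1
        have : hh h0 (0 + 1) = δ := by unfold hh; rw [hh0]; ring
        linarith
      have k3 : hh h0 k < minOsc G u x y := by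
        have h5 := Nat.find_min hex (m := k - 1) (by omega)
        rw [show k - 1 + 1 = k by omega] at h5
        exact not_le.mp h5
      have k4 : k ≤ N := by
        by_contra hcon
        have h6 : hh h0 N ≤ hh h0 k := by
          unfold hh
          have : (2 : ℝ) ^ N ≤ 2 ^ k := pow_le_pow_right₀ (by norm_num) (by omega)
          nlinarith
        linarith
      have sep : ∀ τ : ℝ, Cc G u τ h0 k x ≠ Cc G u τ h0 k y := by
        intro τ hcon
        obtain ⟨p, hp⟩ := walk_of_Cc hcon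
        have h7 : minOsc G u x y ≤ hh h0 k := by
          refine minOsc_le p ?_
          intro a ha b hb
          have a1 := lt_lo (u := u) (τ := τ) hpos k a
          have b1 := lo_le (u := u) (τ := τ) hpos k b
          have e1 : lo u τ h0 k a = lo u τ h0 k b := by
            unfold lo
            rw [hp a ha, hp b hb]
          linarith
        linarith
      have t1 := DF k k2 k4 x y (sep 0)
      have t2 := DF' k k2 k4 x y (sep _)
      have t3 := two_offsets (u := u) hpos k4 x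
      rw [hh_succ] at k1
      linarith

end osc

end CK

end Vale.Agent.P235
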